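import Vale.Agent.P281.H740.TL.Retr

/-!
# P281, project T-UL, block FX1 (helper225): coverings of the fibres
-/

open Set Filter
open scoped Topology ContDiff Manifold

noncomputable section

namespace Vale.Agent.P281.H225.UL

open Vale.Agent.P281.H740

variable {E E' E₀ : Type} [NormedAddCommGroup E] [NormedSpace ℂ E] [NormedAddCommGroup E']
  [NormedSpace ℂ E'] [NormedAddCommGroup E₀] [NormedSpace ℂ E₀] [FiniteDimensional ℂ E]
  [FiniteDimensional ℂ E'] [FiniteDimensional ℂ E₀] {X Y F : Type} [TopologicalSpace X]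
  [ChartedSpace E X] [TopologicalSpace Y] [ChartedSpace E' Y] [TopologicalSpace F]
  [ChartedSpace E₀ F]

/-- an immersion has local left inverses -/
theorem exists_left {i : F → X} {t₀ : F} (hi : ContMDiffAt 𝓘(ℂ, E₀) 𝓘(ℂ, E) ω i t₀)
    (himm : Function.Injective (mfderiv 𝓘(ℂ, E₀) 𝓘(ℂ, E) i t₀)) :
    ∃ R : X → F, ∀ᶠ s in 𝓝 t₀, R (i s) = s := by
  set B : E₀ →L[ℂ] E := mfderiv 𝓘(ℂ, E₀) 𝓘(ℂ, E) i t₀ with hB
  obtain ⟨l, hl⟩ := LinearMap.exists_leftInverse_of_injective (B : E₀ →ₗ[ℂ] E)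
    (LinearMap.ker_eq_bot.2 himm)
  have hlB : ∀ ξ, l (B ξ) = ξ := fun ξ => LinearMap.congr_fun hl ξ
  let L : E →L[ℂ] E₀ := LinearMap.toContinuousLinearMap l
  set cX := chartAt E (i t₀) with hcX
  set cF := chartAt E₀ t₀ with hcF
  have hIs := hasStrictFDerivAt_loc hi
  have hId : HasStrictFDerivAt (fun v => L (cX (i (cF.symm v))))
      ((ContinuousLinearEquiv.refl ℂ E₀ : E₀ ≃L[ℂ] E₀) : E₀ →L[ℂ] E₀) (cF t₀) := by
    have h1 : HasStrictFDerivAt (fun v => L (cX (i (cF.symm v)))) (L.comp B) (cF t₀) :=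
      L.hasStrictFDerivAt.comp (cF t₀) hIs
    have h2 : L.comp B = ((ContinuousLinearEquiv.refl ℂ E₀ : E₀ ≃L[ℂ] E₀) : E₀ →L[ℂ] E₀) := by
      ext v
      exact hlB v
    rw [← h2]
    exact h1
  have : CompleteSpace E₀ := FiniteDimensional.complete ℂ E₀
  set r := hId.localInverse with hr
  have h3 : ∀ᶠ v in 𝓝 (cF t₀), r (L (cX (i (cF.symm v)))) = v := hId.eventually_left_inverse
  refine ⟨fun z => cF.symm (r (L (cX z))), ?_⟩
  filter_upwards [(cF.continuousAt (mem_chart_source E₀ t₀)).eventually h3,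
    cF.open_source.mem_nhds (mem_chart_source E₀ t₀)] with s h4 h5
  rw [cF.left_inv h5] at h4
  show cF.symm (r (L (cX (i s)))) = s
  rw [h4, cF.left_inv h5]

/-- The structure of a compact immersed fibre over the fibre of `f`. -/
theorem cover [IsManifold 𝓘(ℂ, E) ω X] [IsManifold 𝓘(ℂ, E₀) ω F] [T2Space X] [T2Space F]
    [CompactSpace F] (hn : Module.finrank ℂ E = Module.finrank ℂ E' + Module.finrank ℂ E₀)
    {f : X → Y} {i : F → X} {y : Y} (hf : ContMDiff 𝓘(ℂ, E) 𝓘(ℂ, E') ω f)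
    (hi : ContMDiff 𝓘(ℂ, E₀) 𝓘(ℂ, E) ω i)
    (hsub : ∀ x, f x = y → Function.Surjective (mfderiv 𝓘(ℂ, E) 𝓘(ℂ, E') f x))
    (himm : ∀ t, Function.Injective (mfderiv 𝓘(ℂ, E₀) 𝓘(ℂ, E) i t)) (hfi : ∀ t, f (i t) = y)
    {x : X} (T : Finset F) (hT : ∀ t, t ∈ T ↔ i t = x) :
    ∃ ρ : F → X → F, (∀ t ∈ T, ContMDiffAt 𝓘(ℂ, E) 𝓘(ℂ, E₀) ω (ρ t) x ∧ ρ t x = t) ∧
      ∀ᶠ z in 𝓝 x, f z = y → (∀ t ∈ T, i (ρ t z) = z) ∧ (∀ t ∈ T, ∀ t' ∈ T, ρ t z = ρ t' z → t = t') ∧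
        ∀ s, i s = z → ∃ t ∈ T, ρ t z = s := by
  classical
  have h1 : ∀ t : F, ∃ ρ : X → F, t ∈ T → ContMDiffAt 𝓘(ℂ, E) 𝓘(ℂ, E₀) ω ρ x ∧ ρ x = t ∧
      ∀ᶠ z in 𝓝 x, f z = y → i (ρ z) = z := by
    intro t
    by_cases ht : t ∈ T
    · have hit := (hT t).1 ht
      obtain ⟨ρ, h⟩ := exists_retr hn hf hi (hsub _ (hfi t)) (himm t) hfi
      rw [hit] at h
      exact ⟨ρ, fun _ => h⟩
    · exact ⟨fun _ => t, fun h => absurd h ht⟩
  choose ρ hρ using h1
  refine ⟨ρ, fun t ht => ⟨(hρ t ht).1, (hρ t ht).2.1⟩, ?_⟩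
  -- the sections
  have h2 : ∀ᶠ z in 𝓝 x, ∀ t ∈ T, f z = y → i (ρ t z) = z :=
    (Finset.eventually_all T).2 fun t ht => (hρ t ht).2.2
  -- they are distinct
  have h3 : ∀ᶠ z in 𝓝 x, ∀ t ∈ T, ∀ t' ∈ T, ρ t z = ρ t' z → t = t' := by
    refine (Finset.eventually_all T).2 fun t ht => (Finset.eventually_all T).2 fun t' ht' => ?_
    by_cases htt : t = t'
    · exact Eventually.of_forall fun z _ => htt
    · obtain ⟨U, V, hU, hV, htU, htV, hUV⟩ := t2_separation htt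
      have a1 : ∀ᶠ z in 𝓝 x, ρ t z ∈ U :=
        (hρ t ht).1.continuousAt.eventually_mem (by rw [(hρ t ht).2.1]; exact hU.mem_nhds htU)
      have a2 : ∀ᶠ z in 𝓝 x, ρ t' z ∈ V :=
        (hρ t' ht').1.continuousAt.eventually_mem (by rw [(hρ t' ht').2.1]; exact hV.mem_nhds htV)
      filter_upwards [a1, a2] with z b1 b2 b3
      rw [b3] at b1
      exact absurd b2 (disjoint_left.1 hUV b1)
  -- they are all the points of the fibre of `i`
  have h4 : ∀ᶠ z in 𝓝 x, f z = y → ∀ s, i s = z → ∃ t ∈ T, ρ t z = s := by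
    -- good neighbourhoods
    have h5 : ∀ t : F, ∃ N : Set F, IsOpen N ∧ (t ∈ T → t ∈ N ∧
        ∀ s ∈ N, f (i s) = y → ρ t (i s) = s) := by
      intro t
      by_cases ht : t ∈ T
      · have hit := (hT t).1 ht
        obtain ⟨R, hR⟩ := exists_left (hi t) (himm t)
        have a1 : ∀ᶠ s in 𝓝 t, f (i s) = y → i (ρ t (i s)) = i s := by
          have := (hi t).continuousAt.tendsto.eventually (by rw [hit]; exact (hρ t ht).2.2)
          exact this
        have a2 : Tendsto (fun s => ρ t (i s)) (𝓝 t) (𝓝 t) := by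
          have b1 : Tendsto (ρ t) (𝓝 x) (𝓝 t) := by
            have := (hρ t ht).1.continuousAt.tendsto
            rwa [(hρ t ht).2.1] at this
          have b2 : Tendsto i (𝓝 t) (𝓝 x) := by
            have := (hi t).continuousAt.tendsto
            rwa [hit] at this
          exact b1.comp b2
        obtain ⟨N, hN1, hN2, hN3⟩ := eventually_nhds_iff.1 (a1.and (hR.and (a2.eventually hR)))
        refine ⟨N, hN2, fun _ => ⟨hN3, fun s hs hsy => ?_⟩⟩
        obtain ⟨c1, c2, c3⟩ := hN1 s hs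
        have c4 := c1 hsy
        rw [c4] at c3
        rw [← c3, c2]
      · exact ⟨∅, isOpen_empty, fun h => absurd h ht⟩
    choose N hNo hN using h5
    set K : Set F := (⋃ t ∈ T, N t)ᶜ with hK
    have hKc : IsCompact K :=
      (isOpen_biUnion fun t _ => hNo t).isClosed_compl.isCompact
    have hxK : x ∉ i '' K := by
      rintro ⟨t, ht, htx⟩
      refine ht (mem_iUnion₂.2 ⟨t, (hT t).2 htx, ((hN t) ((hT t).2 htx)).1⟩)
    have hev : ∀ᶠ z in 𝓝 x, z ∉ i '' K :=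
      (hKc.image hi.continuous).isClosed.isOpen_compl.mem_nhds hxK
    filter_upwards [hev] with z hz hzy s hs
    have hsK : s ∉ K := fun h => hz ⟨s, h, hs⟩
    rw [hK, mem_compl_iff, not_not] at hsK
    obtain ⟨t, ht, hst⟩ := mem_iUnion₂.1 hsK
    refine ⟨t, ht, ?_⟩
    rw [← hs]
    exact (hN t ht).2 s hst (hfi s)
  filter_upwards [h2, h3, h4] with z b1 b2 b3 hz
  exact ⟨fun t ht => b1 t ht hz, b2, b3 hz⟩

end Vale.Agent.P281.H225.UL
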