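import Vale.Agent.P281.H511.UL.Spec
import Vale.Agent.P281.H969.TL.Unit
import Vale.Agent.P281.H225.UL.Cov

/-!
# P281, project T-UL, block FX1 (helper225): the norm of a unit of a covering of the fibre
-/

open Set Filter Metric Vale.Agent.P281 Vale.Agent.P281.H713
open Vale.Agent.P281.MF Vale.Agent.P281.ISO Vale.Agent.P281.H713.TZ
open Vale.Agent.P281.H64
open Vale.Agent.P281.H969.TL (IsUnitAt IsUnitF clopen_fib const_fib dense_fib)

open scoped Topology ContDiff Manifold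

noncomputable section

namespace Vale.Agent.P281.H225.UL

/-- Two functions on a compact connected manifold. -/
theorem const_cpt {d : ℕ} {F : Type} [TopologicalSpace F] [ChartedSpace (Cm d) F]
    [IsManifold 𝓘(ℂ, Cm d) ω F] [CompactSpace F] [PreconnectedSpace F] {k : F → ℂ}
    (hk : ∀ t, ∃ h : F → ℂ, HolV (Cm d) h t ∧ ∀ᶠ s in 𝓝 t, k s = h s) (t t' : F) : k t = k t' := by
  let g : F → Cm 0 := fun _ => 0
  have hg : ∀ t, HolM (Cm d) (Cm 0) g t := fun t => contMDiffAt_const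
  have e₀ : Cm d ≃L[ℂ] (Cm 0 × (Fin d → ℂ)) :=
    ContinuousLinearEquiv.ofFinrankEq (by simp)
  have huniv : g ⁻¹' {0} = univ := by
    ext t
    simp [g]
  refine const_fib hg e₀ (y := 0) (fun t _ => ?_) ?_ ?_ (fun t _ => ?_) rfl rfl
  · intro v
    exact ⟨0, Subsingleton.elim _ _⟩
  · rw [huniv]
    exact isPreconnected_univ
  · rw [huniv]
    exact isCompact_univ
  · obtain ⟨h, h1, h2⟩ := hk t
    exact ⟨h, h1, h2.mono fun s hs _ => hs⟩

/-- **FX1**. -/
theorem unitNorm : H511.UL.UnitNormStmt := by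
  intro p d m X Y F _ _ _ _ _ _ _ _ _ _ _ f S 𝒟 a i y u hd hf hS hP h𝒟 hDf hy hi hm hu
  classical
  have : CompactSpace F := hi.compact
  have : ConnectedSpace F := hi.connected
  have : IsManifold 𝓘(ℂ, Cm d) ω F := hi.manifold
  have hn : Module.finrank ℂ (Cm (p + d)) = Module.finrank ℂ (Cm p) + Module.finrank ℂ (Cm d) := by
    simp
  have hsub : ∀ x, f x = y → Function.Surjective (mfderiv 𝓘(ℂ, Cm (p + d)) 𝓘(ℂ, Cm p) f x) :=
    fun x hx => hP.submersive x (by rw [hx]; exact hy)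
  have hcon : IsPreconnected (f ⁻¹' {y}) := (hP.connected y hy).isPreconnected
  have e₀ : Cm (p + d) ≃L[ℂ] (Cm p × (Fin d → ℂ)) :=
    ContinuousLinearEquiv.ofFinrankEq (by simp)
  -- the sheets
  have hfin : ∀ x, (i ⁻¹' {x}).Finite := fun x => finite_of_encard_le_coe (hm x)
  set T : X → Finset F := fun x => (hfin x).toFinset with hTd
  have hT : ∀ x t, t ∈ T x ↔ i t = x := fun x t => by simp [hTd]
  have hcov : ∀ x, f x = y → ∃ ρ : F → X → F,
      (∀ t ∈ T x, ContMDiffAt 𝓘(ℂ, Cm (p + d)) 𝓘(ℂ, Cm d) ω (ρ t) x ∧ ρ t x = t) ∧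
      ∀ᶠ z in 𝓝 x, f z = y → (∀ t ∈ T x, i (ρ t z) = z) ∧
        (∀ t ∈ T x, ∀ t' ∈ T x, ρ t z = ρ t' z → t = t') ∧ ∀ s, i s = z → ∃ t ∈ T x, ρ t z = s :=
    fun x _ => cover hn hf hi.hol hsub hi.immersion hi.fibre (T x) (hT x)
  have himg : ∀ (x : X) (ρ : F → X → F) (z : X), (∀ t ∈ T x, i (ρ t z) = z) →
      (∀ s, i s = z → ∃ t ∈ T x, ρ t z = s) → T z = (T x).image fun t => ρ t z := by
    intro x ρ z h1 h2
    ext s
    rw [hT, Finset.mem_image]
    constructor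
    · intro hs
      exact h2 s hs
    · rintro ⟨t, ht, rfl⟩
      exact h1 t ht
  -- their number is constant
  obtain ⟨t₀⟩ := ‹ConnectedSpace F›.toNonempty
  set N : ℕ := (T (i t₀)).card with hN
  have hcard : ∀ x, f x = y → (T x).card = N := by
    have h1 : ∀ x, f x = y → ∀ᶠ z in 𝓝[f ⁻¹' {y}] x, (T z).card = (T x).card := by
      intro x hx
      obtain ⟨ρ, -, hρ⟩ := hcov x hx
      rw [eventually_nhdsWithin_iff]
      filter_upwards [hρ] with z hz hzy
      obtain ⟨h1, h2, h3⟩ := hz hzy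
      rw [himg x ρ z h1 h3, Finset.card_image_of_injOn fun t ht t' ht' h => h2 t ht t' ht' h]
    intro x hx
    refine clopen_fib (P := fun x => (T x).card = N) hcon ?_ ?_
      (show i t₀ ∈ f ⁻¹' {y} from hi.fibre t₀) rfl (show x ∈ f ⁻¹' {y} from hx)
    · intro x hx hxN
      filter_upwards [h1 x hx] with z hz
      rw [hz, hxN]
    · intro x hx hfr
      obtain ⟨z, hz1, hz2⟩ := (hfr.and_eventually (h1 x hx)).exists
      rw [← hz2, hz1]
  have hN0 : 0 < N := Finset.card_pos.2 ⟨t₀, (hT _ _).2 rfl⟩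
  have hNm : N ≤ m := by
    have h1 := hm (i t₀)
    rw [(hfin (i t₀)).encard_eq_coe_toFinset_card] at h1
    exact_mod_cast h1
  obtain ⟨k, hk⟩ : N ∣ m.factorial := Nat.dvd_factorial hN0 hNm
  -- the norm
  set W : X → ℂ := fun x => ∏ t ∈ T x, u t ^ k with hW
  have hmain : IsUnitAt (Cm (p + d)) f 𝒟 (fun D => (m.factorial : ℤ) * a D) y W := by
    intro x hx e he
    obtain ⟨ρ, hρ1, hρ2⟩ := hcov x hx
    have h1 : ∀ t, ∃ h : F → ℂ, t ∈ T x → HolV (Cm d) h t ∧ h t ≠ 0 ∧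
        ∀ᶠ s in 𝓝 t, (∀ D ∈ 𝒟, i s ∉ D) → u s = h s * ∏ D ∈ 𝒟, e D (i s) ^ a D := by
      intro t
      by_cases ht : t ∈ T x
      · have hit := (hT x t).1 ht
        obtain ⟨h, h1⟩ := hu t e (by rw [hit]; exact he)
        exact ⟨h, fun _ => h1⟩
      · exact ⟨fun _ => 0, fun h => absurd h ht⟩
    choose h hh using h1
    have hhρ : ∀ t ∈ T x, HolV (Cm (p + d)) (fun z => h t (ρ t z) ^ k) x := by
      intro t ht
      have h2 : ContMDiffAt 𝓘(ℂ, Cm d) 𝓘(ℂ, ℂ) ω (h t) (ρ t x) := by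
        rw [(hρ1 t ht).2]; exact (hh t ht).1
      exact HolV.pow (g := fun z => h t (ρ t z)) (ContMDiffAt.comp x (g := h t) (f := ρ t) h2
        (hρ1 t ht).1) k
    refine ⟨fun z => ∏ t ∈ T x, h t (ρ t z) ^ k, HolV.prod hhρ, ?_, ?_⟩
    · refine Finset.prod_ne_zero_iff.2 fun t ht => pow_ne_zero _ ?_
      rw [(hρ1 t ht).2]
      exact (hh t ht).2.1
    · have h2 : ∀ᶠ z in 𝓝 x, ∀ t ∈ T x, (∀ D ∈ 𝒟, i (ρ t z) ∉ D) →
          u (ρ t z) = h t (ρ t z) * ∏ D ∈ 𝒟, e D (i (ρ t z)) ^ a D := by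
        refine (Finset.eventually_all _).2 fun t ht => ?_
        have h3 : Tendsto (ρ t) (𝓝 x) (𝓝 t) := by
          have := (hρ1 t ht).1.continuousAt.tendsto
          rwa [(hρ1 t ht).2] at this
        exact h3.eventually (hh t ht).2.2
      filter_upwards [hρ2, h2] with z a1 a2 hz hz𝒟
      obtain ⟨b1, b2, b3⟩ := a1 hz
      set P : ℂ := ∏ D ∈ 𝒟, e D z ^ a D with hPd
      have b4 : ∀ t ∈ T x, u (ρ t z) = h t (ρ t z) * P := by
        intro t ht
        have := a2 t ht (by rw [b1 t ht]; exact hz𝒟)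
        rwa [b1 t ht] at this
      have b5 : ∏ D ∈ 𝒟, e D z ^ ((m.factorial : ℤ) * a D) = P ^ m.factorial := by
        rw [hPd, ← Finset.prod_pow]
        refine Finset.prod_congr rfl fun D _ => ?_
        rw [zpow_mul', zpow_natCast]
      show ∏ t ∈ T z, u t ^ k = _
      rw [b5, himg x ρ z b1 b3, Finset.prod_image fun t ht t' ht' h => b2 t ht t' ht' h,
        Finset.prod_congr rfl fun t ht => by rw [b4 t ht, mul_pow], Finset.prod_mul_distrib,
        Finset.prod_const, hcard x hx, ← pow_mul, hk, mul_comm k N]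
  refine ⟨W, hmain, ?_⟩
  -- comparison with `u ^ m!`
  have he : ∀ x : X, ∃ e : Set X → X → ℂ, ∀ D ∈ 𝒟, J.IsLocalEq (Cm (p + d)) D (e D) x := by
    intro x
    have h1 : ∀ D, ∃ g, D ∈ 𝒟 → J.IsLocalEq (Cm (p + d)) D g x := by
      intro D
      by_cases h : D ∈ 𝒟
      · obtain ⟨g, hg⟩ := (h𝒟 D h).2.1 x
        exact ⟨g, fun _ => hg⟩
      · exact ⟨fun _ => 0, fun h' => absurd h' h⟩
    choose e he using h1
    exact ⟨e, he⟩
  choose e he using he
  choose g hg1 hg2 hg3 using fun t => hmain (i t) (hi.fibre t) (e (i t)) (he (i t))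
  choose g' hg1' hg2' hg3' using fun t => hu t (e (i t)) (he (i t))
  -- the local quotients
  set q : F → F → ℂ := fun t s => g t (i s) / g' t s ^ m.factorial with hq
  have hqh : ∀ t, HolV (Cm d) (q t) t := by
    intro t
    refine HolV.div ?_ (HolV.pow (hg1' t) _) (pow_ne_zero _ (hg2' t))
    exact ContMDiffAt.comp t (g := g t) (f := i) (hg1 t) (hi.hol t)
  have hq0 : ∀ t, q t t ≠ 0 := fun t => div_ne_zero (hg2 t) (pow_ne_zero _ (hg2' t))
  have hqe : ∀ t, ∀ᶠ s in 𝓝 t, (∀ D ∈ 𝒟, i s ∉ D) →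
      W (i s) = q t s * u s ^ m.factorial ∧ u s ≠ 0 := by
    intro t
    have h2 : ∀ᶠ z in 𝓝 (i t), ∀ D ∈ 𝒟, z ∉ D → e (i t) D z ≠ 0 :=
      (Finset.eventually_all 𝒟).2 fun D hD' => H969.TL.localEq_ne (he (i t) D hD')
    filter_upwards [(hi.hol t).continuousAt.eventually (hg3 t), hg3' t,
      (hi.hol t).continuousAt.eventually h2,
      (hg1' t).continuousAt.eventually_ne (hg2' t)] with s a1 a2 a3 a4 a5
    have b1 := a1 (hi.fibre s) a5
    have b2 := a2 a5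
    set P : ℂ := ∏ D ∈ 𝒟, e (i t) D (i s) ^ a D with hPd
    have b5 : ∏ D ∈ 𝒟, e (i t) D (i s) ^ ((m.factorial : ℤ) * a D) = P ^ m.factorial := by
      rw [hPd, ← Finset.prod_pow]
      refine Finset.prod_congr rfl fun D _ => ?_
      rw [zpow_mul', zpow_natCast]
    have b6 : P ≠ 0 := Finset.prod_ne_zero_iff.2 fun D hD => zpow_ne_zero _ (a3 D hD (a5 D hD))
    refine ⟨?_, by rw [b2]; exact mul_ne_zero a4 b6⟩
    rw [b1, b5, b2, hq, mul_pow]
    field_simp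
  -- density
  have hdense : ∀ t : F, ∃ᶠ s in 𝓝 t, ∀ D ∈ 𝒟, i s ∉ D := by
    intro t h0
    obtain ⟨ρ, hρ1, hρ2⟩ := hcov (i t) (hi.fibre t)
    have ht : t ∈ T (i t) := (hT _ _).2 rfl
    have h1 := dense_fib (fun x => hf x) e₀ hsub hcon h𝒟 (fun D hD => hDf D hD y hy) (hi.fibre t)
    have h2 : Tendsto (ρ t) (𝓝 (i t)) (𝓝 t) := by
      have := (hρ1 t ht).1.continuousAt.tendsto
      rwa [(hρ1 t ht).2] at this
    obtain ⟨z, ⟨hz1, hz2⟩, hz3, hz4⟩ := (h1.and_eventually (hρ2.and (h2.eventually h0))).exists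
    refine hz4 fun D hD => ?_
    rw [(hz3 hz1).1 t ht]
    exact hz2 D hD
  have hloc : ∀ t, ∀ᶠ s in 𝓝 t, q s s = q t s := by
    intro t
    filter_upwards [eventually_eventually_nhds.2 (hqe t), (hqh t).eventually] with s a1 a2
    have h8 : Tendsto (fun w => q s w - q t w) (𝓝 s) (𝓝 (q s s - q t s)) :=
      ((hqh s).continuousAt.sub a2.continuousAt)
    by_contra hne
    obtain ⟨w, hw1, hw2, hw3, hw4⟩ := ((hdense s).and_eventually
      ((h8.eventually_ne (sub_ne_zero.2 hne)).and (a1.and (hqe s)))).exists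
    obtain ⟨c1, c2⟩ := hw3 hw1
    obtain ⟨c3, -⟩ := hw4 hw1
    rw [c1] at c3
    exact hw2 (sub_eq_zero.2 (mul_right_cancel₀ (pow_ne_zero _ c2) c3).symm)
  have hconst : ∀ t, q t t = q t₀ t₀ := fun t =>
    const_cpt (k := fun s => q s s) (fun t => ⟨q t, hqh t, hloc t⟩) t t₀
  refine ⟨q t₀ t₀, hq0 t₀, fun t ht => ?_⟩
  rw [← hconst t]
  exact ((hqe t).self_of_nhds ht).1

end Vale.Agent.P281.H225.UL
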